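import Crest.Agent.N325.Mt.Defs
import Crest.Agent.N325.Mt.Tutte
import Crest.Agent.N325.Ip.Bar

/-!
# Row 325 (helper53): the end count

A fractional Tutte–Berge bound (`ex_ge`), the total rise of approximate duals along a conserved
flow (`rise_sum`) and their combination (`endCount`).
-/

set_option autoImplicit false
open Finset

namespace Crest.Agent.N325.En

open Crest.Agent.N325.Mt Crest.Agent.N325.Ip Crest.Agent.N325.Ipm

/-- fractional Tutte–Berge bound -/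
theorem ex_ge {V : Finset ℕ} {E : ℕ → ℕ → Prop} {m : ℕ → ℕ} (hm : IsM V E m) {C A : Finset ℕ}
    {S : ℕ → Finset ℕ} (sub : ∀ c ∈ C, S c ⊆ V) (odd : ∀ c ∈ C, Odd #(S c))
    (dis : ∀ c ∈ C, ∀ c' ∈ C, c ≠ c' → Disjoint (S c) (S c')) {φ ψ ρ : ℕ → ℝ}
    (φ1 : ∀ c ∈ C, φ c ≤ 1) (ψ0 : ∀ u, 0 ≤ ψ u) (ψA : ∀ u, u ∉ A → ψ u = 0)
    (ρ0 : ∀ c ∈ C, 0 ≤ ρ c)
    (h : ∀ c ∈ C, ∀ v ∈ S c, ∀ u ∈ V, u ∉ S c → E v u → φ c ≤ ψ u + ρ c) :
    ∑ c ∈ C, φ c ≤ ex V m + ∑ a ∈ A, ψ a + ∑ c ∈ C, ρ c := by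
  have hex : ∀ c ∈ C, ∃ v ∈ S c, m v = v ∨ m v ∉ S c := by
    intro c hc
    by_contra hno
    push Not at hno
    exact Nat.not_even_iff_odd.2 (odd c hc) (even_card_of_invol (S c) m (fun v hv => (hno v hv).2)
      (fun v hv => hm.inv (sub c hc hv)) fun v hv => (hno v hv).1)
  choose! f hf using hex
  have inj : Set.InjOn (fun c => m (f c)) C := fun c hc c' hc' e => by
    by_contra hne
    have e' : f c = f c' := by
      rw [← hm.inv (sub c hc (hf c hc).1), ← hm.inv (sub c' hc' (hf c' hc').1)]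
      exact congrArg m e
    exact disjoint_left.1 (dis c hc c' hc' hne) (hf c hc).1 (e' ▸ (hf c' hc').1)
  let χ : ℕ → ℝ := fun u => (if m u = u then 1 else 0) + ψ u
  have χ0 : ∀ u, 0 ≤ χ u := fun u => add_nonneg (by split_ifs <;> norm_num) (ψ0 u)
  have k1 : ∀ c ∈ C, φ c ≤ χ (m (f c)) + ρ c := fun c hc => by
    have a := sub c hc (hf c hc).1
    by_cases e : m (f c) = f c
    · have := φ1 c hc; have := ψ0 (f c); have := ρ0 c hc
      simp only [χ, e, if_true]; linarith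
    · have := h c hc _ (hf c hc).1 _ (hm.mem a) ((hf c hc).2.resolve_left e) (hm.adj a e)
      have : (0 : ℝ) ≤ if m (m (f c)) = m (f c) then 1 else 0 := by split_ifs <;> norm_num
      simp only [χ]; linarith
  have k2 : ∑ c ∈ C, χ (m (f c)) ≤ ∑ u ∈ V, χ u := by
    rw [← sum_image (f := χ) inj]
    exact sum_le_sum_of_subset_of_nonneg (fun u hu => by
      obtain ⟨c, hc, rfl⟩ := mem_image.1 hu
      exact hm.mem (sub c hc (hf c hc).1)) fun u _ _ => χ0 u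
  have k3 : ∑ u ∈ V, ψ u ≤ ∑ a ∈ A, ψ a := by
    rw [← sum_filter_of_ne (p := fun u => u ∈ A) fun u _ k => by_contra fun k' => k (ψA u k')]
    exact sum_le_sum_of_subset_of_nonneg (fun u hu => (mem_filter.1 hu).2) fun u _ _ => ψ0 u
  have k4 : ∑ u ∈ V, χ u = ex V m + ∑ u ∈ V, ψ u := by
    simp only [χ, sum_add_distrib, sum_boole, ex, exs]
  have := sum_le_sum k1
  rw [sum_add_distrib] at this
  linarith

/-- a circulation is orthogonal to all real potential differences -/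
theorem circ_real {N : Net} {c : ℕ → ℤ} (h : N.Circ c) (y : ℕ → ℝ) :
    ∑ e ∈ N.E, (c e : ℝ) * (y (N.arc e).b - y (N.arc e).a) = 0 := by
  let T := N.E.image (fun e => (N.arc e).a) ∪ N.E.image fun e => (N.arc e).b
  have k : ∀ e ∈ N.E, (c e : ℝ) * (y (N.arc e).b - y (N.arc e).a) = ∑ v ∈ T, y v *
      ((c e * ((if (N.arc e).b = v then 1 else 0) - if (N.arc e).a = v then 1 else 0) : ℤ) : ℝ) := by
    intro e he
    have a : (N.arc e).a ∈ T := mem_union_left _ (mem_image_of_mem _ he)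
    have b : (N.arc e).b ∈ T := mem_union_right _ (mem_image_of_mem _ he)
    push_cast
    simp only [mul_sub, sum_sub_distrib, mul_ite, mul_one, mul_zero, sum_ite_eq, a, b, if_true]
    ring
  rw [sum_congr rfl k, sum_comm]
  refine sum_eq_zero fun v _ => ?_
  rw [← mul_sum, ← Int.cast_sum, h fun u => if u = v then 1 else 0]
  simp

/-- `y` is a system of approximate duals -/
def Du (P : Pm) (N : Net) (y : ℕ → ℝ) : Prop :=
  ∀ e ∈ N.E, |gr P (N.arc e) (N.X e) - (y (N.arc e).b - y (N.arc e).a)| ≤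
    ln P (N.arc e) (N.X e) / 10

theorem quiet_iff {P : Pm} {N : Net} : Quiet P N ↔ ∃ y, Du P N y := Iff.rfl

/-- normalisation at the ground -/
theorem Du.norm {P : Pm} {N : Net} {y : ℕ → ℝ} (h : Du P N y) : Du P N fun v => y v - y 0 :=
  fun e he => by simpa only [sub_sub_sub_cancel_right] using h e he

theorem quiet_norm {P : Pm} {N : Net} (h : Quiet P N) : ∃ y, Du P N y ∧ y 0 = 0 :=
  let ⟨_, k⟩ := h; ⟨_, Du.norm k, sub_self _⟩

/-- upper bound on the change of the dual along an arc -/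
theorem Du.le {P : Pm} {N : Net} {y : ℕ → ℝ} (h : Du P N y) {e : ℕ} (he : e ∈ N.E) :
    y (N.arc e).b - y (N.arc e).a ≤ (N.arc e).p
      - 9 / 10 * ((N.arc e).c1 * wt (σ0 P) (s1 P (N.arc e) (N.X e)))
      - 9 / 10 * ((N.arc e).c2 * wt (σ0 P) (s2 P (N.arc e) (N.X e)))
      + 11 / 10 * ((N.arc e).c3 * wt (σ0 P) (s3 P (N.arc e) (N.X e))) := by
  have := (abs_le.1 (h e he)).1
  simp only [gr, ln] at this
  linarith

/-- lower bound on the change of the dual along an arc -/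
theorem Du.ge {P : Pm} {N : Net} {y : ℕ → ℝ} (h : Du P N y) {e : ℕ} (he : e ∈ N.E) :
    (N.arc e).p - 11 / 10 * ((N.arc e).c1 * wt (σ0 P) (s1 P (N.arc e) (N.X e)))
      - 11 / 10 * ((N.arc e).c2 * wt (σ0 P) (s2 P (N.arc e) (N.X e)))
      + 9 / 10 * ((N.arc e).c3 * wt (σ0 P) (s3 P (N.arc e) (N.X e))) ≤
      y (N.arc e).b - y (N.arc e).a := by
  have := (abs_le.1 (h e he)).2
  simp only [gr, ln] at this
  linarith

/-- the weight of the upper barrier -/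
noncomputable def up (P : Pm) (N : Net) (e : ℕ) : ℝ :=
  (N.arc e).c3 * wt (σ0 P) (s3 P (N.arc e) (N.X e))

/-- all lower offsets vanish and all slacks are above the truncation point -/
def Fat (P : Pm) (N : Net) : Prop :=
  ∀ e ∈ N.E, (N.arc e).o1 = 0 ∧ (P.s0 : ℤ) ≤ N.X e ∧ (P.s0 : ℤ) ≤ (N.arc e).o3 - N.X e

theorem Fat.s1 {P : Pm} {N : Net} (h : Fat P N) (hD : 1 ≤ P.D) {e : ℕ} (he : e ∈ N.E) :
    s1 P (N.arc e) (N.X e) = N.X e / P.D ∧ σ0 P ≤ s1 P (N.arc e) (N.X e) ∧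
      s1 P (N.arc e) (N.X e) ≤ s2 P (N.arc e) (N.X e) ∧ σ0 P ≤ s3 P (N.arc e) (N.X e) ∧
      s1 P (N.arc e) (N.X e) + s3 P (N.arc e) (N.X e) = (N.arc e).o3 / P.D := by
  obtain ⟨a, b, c⟩ := h e he
  have d : (0 : ℝ) < P.D := by exact_mod_cast hD
  have b' : (P.s0 : ℝ) ≤ N.X e := by exact_mod_cast b
  have c' : (P.s0 : ℝ) ≤ (N.arc e).o3 - N.X e := by exact_mod_cast c
  have o : (0 : ℝ) ≤ (N.arc e).o2 := Nat.cast_nonneg _
  simp only [Ip.s1, s2, s3, σ0, a, Nat.cast_zero, add_zero]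
  refine ⟨trivial, by gcongr, by gcongr; linarith, by gcongr, by ring⟩

/-- **the total rise**: the capacities times the upper weights are paid by the lower weights -/
theorem rise_sum {P : Pm} {N : Net} {y : ℕ → ℝ} (hD : 1 ≤ P.D) (hs : 1 ≤ P.s0)
    (hc : N.Circ N.X) (hy : Du P N y) (hf : Fat P N) :
    ∑ e ∈ N.E, ((N.arc e).o3 : ℝ) / P.D * up P N e ≤
      ∑ e ∈ N.E, (11 / 9 * ((N.arc e).c1 + (N.arc e).c2) + (N.arc e).c3 : ℝ) := by
  have d : (0 : ℝ) < P.D := by exact_mod_cast hD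
  have z := circ_real hc y
  have z' : ∑ e ∈ N.E, 10 / 9 * ((N.X e : ℝ) / P.D * (y (N.arc e).b - y (N.arc e).a)) = 0 := by
    have : ∀ e ∈ N.E, 10 / 9 * ((N.X e : ℝ) / P.D * (y (N.arc e).b - y (N.arc e).a)) =
        10 / 9 / P.D * ((N.X e : ℝ) * (y (N.arc e).b - y (N.arc e).a)) := fun e _ => by ring
    rw [sum_congr rfl this, ← mul_sum, z, mul_zero]
  rw [← add_zero (∑ e ∈ N.E, (11 / 9 * _ + _ : ℝ)), ← z', ← sum_add_distrib]
  refine sum_le_sum fun e he => ?_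
  obtain ⟨a1, a2, a3, a4, a5⟩ := hf.s1 hD he
  have g := hy.ge he
  have σ := σ0_pos hD hs
  rw [← a1, ← a5, up]
  rw [wt_of_le a2, wt_of_le (a2.trans a3)] at g
  rw [wt_of_le a4] at g ⊢
  set f := Ip.s1 P (N.arc e) (N.X e)
  set s := s2 P (N.arc e) (N.X e)
  set t := s3 P (N.arc e) (N.X e)
  have f0 : 0 < f := σ.trans_le a2
  have t0 : 0 < t := σ.trans_le a4
  have g' := mul_le_mul_of_nonneg_left g f0.le
  have e1 : f * (1 / f) = 1 := by field_simp
  have e2 : f * (1 / s) ≤ 1 := by rw [mul_one_div, div_le_one (f0.trans_le a3)]; exact a3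
  have e3 : t * (1 / t) = 1 := by field_simp
  have c1 : (0 : ℝ) ≤ (N.arc e).c1 := Nat.cast_nonneg _
  have c2 : (0 : ℝ) ≤ (N.arc e).c2 := Nat.cast_nonneg _
  have p0 : (0 : ℝ) ≤ f * (N.arc e).p := by positivity
  have e4 := mul_le_mul_of_nonneg_left e2 c2
  have e5 : ((N.arc e).c1 : ℝ) * (f * (1 / f)) = (N.arc e).c1 := by rw [e1, mul_one]
  have e6 : ((N.arc e).c3 : ℝ) * (t * (1 / t)) = (N.arc e).c3 := by rw [e3, mul_one]
  nlinarith

theorem up_nonneg {P : Pm} {N : Net} (hD : 1 ≤ P.D) (hs : 1 ≤ P.s0) (hf : Fat P N) {e : ℕ}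
    (he : e ∈ N.E) : 0 ≤ up P N e :=
  mul_nonneg (Nat.cast_nonneg _) (wt_pos ((σ0_pos hD hs).trans_le (hf.s1 hD he).2.2.2.1)).le

/-- with all capacities at least `b` units -/
theorem up_sum {P : Pm} {N : Net} {y : ℕ → ℝ} (hD : 1 ≤ P.D) (hs : 1 ≤ P.s0)
    (hc : N.Circ N.X) (hy : Du P N y) (hf : Fat P N) {b : ℕ} (hb : ∀ e ∈ N.E, b ≤ (N.arc e).o3) :
    (b : ℝ) / P.D * ∑ e ∈ N.E, up P N e ≤
      ∑ e ∈ N.E, (11 / 9 * ((N.arc e).c1 + (N.arc e).c2) + (N.arc e).c3 : ℝ) := by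
  refine le_trans ?_ (rise_sum hD hs hc hy hf)
  rw [mul_sum]
  refine sum_le_sum fun e he => mul_le_mul_of_nonneg_right ?_ (up_nonneg hD hs hf he)
  have := hb e he
  gcongr

/-- along an arc without price the dual rises by at most `1.1 up` -/
theorem Du.rise {P : Pm} {N : Net} {y : ℕ → ℝ} (h : Du P N y) (hD : 1 ≤ P.D) (hs : 1 ≤ P.s0)
    (hf : Fat P N) {e : ℕ} (he : e ∈ N.E) (hp : (N.arc e).p = 0) :
    y (N.arc e).b ≤ y (N.arc e).a + 11 / 10 * up P N e := by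
  have k := h.le he
  obtain ⟨-, a2, a3, -, -⟩ := hf.s1 hD he
  have σ := σ0_pos hD hs
  have w1 := mul_nonneg (Nat.cast_nonneg (α := ℝ) (N.arc e).c1) (wt_pos (s0 := σ0 P) (σ.trans_le a2)).le
  have w2 := mul_nonneg (Nat.cast_nonneg (α := ℝ) (N.arc e).c2)
    (wt_pos (s0 := σ0 P) (σ.trans_le (a2.trans a3))).le
  rw [hp, Nat.cast_zero] at k
  rw [up]; linarith

/-- The shape of the network at the end of a phase.  `C` = the nodes of the outer classes, `S c` =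
the vertices of the class, `A` = the inner vertices, `nd u` = the node of an inner or pending vertex,
`K` = the exposed vertices of the current matching, `H` = the nodes with a high dual (pending). -/
structure Shp (V : Finset ℕ) (E : ℕ → ℕ → Prop) (N : Net) (C : Finset ℕ) (S : ℕ → Finset ℕ)
    (A : Finset ℕ) (nd : ℕ → ℕ) (K : Finset ℕ) (H : ℕ → Prop) : Prop where
  sub : ∀ c ∈ C, S c ⊆ V
  odd : ∀ c ∈ C, Odd #(S c)
  dis : ∀ c ∈ C, ∀ c' ∈ C, c ≠ c' → Disjoint (S c) (S c')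
  out : ∀ c ∈ C, ∀ v ∈ S c, ∀ u ∈ V, u ∉ S c → E v u → (u ∈ A ∨ H (nd u)) ∧
    ∃ e ∈ N.E, (N.arc e).a = c ∧ (N.arc e).b = nd u ∧ (N.arc e).p = 0
  ent : ∃ ar : ℕ → ℕ, Set.InjOn (fun u => (N.arc (ar u)).b) ↑(A ∪ K) ∧ Disjoint A K ∧
    (∀ u ∈ A ∪ K, ar u ∈ N.E ∧ (N.arc (ar u)).p = 0 ∧
      ((N.arc (ar u)).b ∈ C ∨ H (N.arc (ar u)).b)) ∧
    (∀ u ∈ A, (N.arc (ar u)).a = nd u) ∧ ∀ u ∈ K, (N.arc (ar u)).a = 0

/-- the clamp -/
noncomputable def clp (θ t : ℝ) : ℝ := max 0 (min 1 (1 - t / θ))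

theorem clp_nonneg (θ t : ℝ) : 0 ≤ clp θ t := le_max_left _ _
theorem clp_le_one (θ t : ℝ) : clp θ t ≤ 1 := max_le zero_le_one (min_le_left _ _)
theorem clp_zero (θ : ℝ) : clp θ 0 = 1 := by simp [clp]
theorem clp_high {θ t : ℝ} (h0 : 0 < θ) (h : θ ≤ t) : clp θ t = 0 :=
  max_eq_left ((min_le_right _ _).trans (by rw [sub_nonpos, one_le_div h0]; exact h))
theorem clp_lip {θ s t r : ℝ} (h0 : 0 < θ) (r0 : 0 ≤ r) (h : t ≤ s + r) :
    clp θ s ≤ clp θ t + r / θ := by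
  have a : t / θ ≤ s / θ + r / θ := by rw [← add_div]; gcongr
  have b : 0 ≤ r / θ := by positivity
  simp only [clp, max_def, min_def]
  split_ifs <;> linarith

/-- the abstract end count -/
theorem Shp.count {V : Finset ℕ} {E : ℕ → ℕ → Prop} {N : Net} {C : Finset ℕ}
    {S : ℕ → Finset ℕ} {A : Finset ℕ} {nd : ℕ → ℕ} {K : Finset ℕ} {H : ℕ → Prop}
    (h : Shp V E N C S A nd K H) {y r : ℕ → ℝ} {θ : ℝ} (h0 : 0 < θ) (y0 : y 0 = 0)
    (hH : ∀ v, H v → θ ≤ y v) (r0 : ∀ e ∈ N.E, 0 ≤ r e)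
    (hr : ∀ e ∈ N.E, (N.arc e).p = 0 → y (N.arc e).b ≤ y (N.arc e).a + r e)
    {m : ℕ → ℕ} (hm : IsM V E m) : (#K : ℝ) ≤ ex V m + 2 * (∑ e ∈ N.E, r e) / θ := by
  obtain ⟨ar, inj, dAK, ha, hA, hK⟩ := h.ent
  let φ : ℕ → ℝ := fun v => clp θ (y v)
  let ψ : ℕ → ℝ := fun u => if u ∈ A then φ (nd u) else 0
  let ρ : ℕ → ℝ := fun c => ∑ e ∈ N.E with (N.arc e).a = c, r e / θ
  have rθ : ∀ e ∈ N.E, 0 ≤ r e / θ := fun e he => div_nonneg (r0 e he) h0.le
  have lip : ∀ e ∈ N.E, (N.arc e).p = 0 → φ (N.arc e).a ≤ φ (N.arc e).b + r e / θ :=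
    fun e he hp => clp_lip h0 (r0 e he) (hr e he hp)
  have k1 := ex_ge hm (A := A) h.sub h.odd h.dis (φ := φ) (ψ := ψ) (ρ := ρ)
    (fun _ _ => clp_le_one _ _) (fun u => by
      simp only [ψ]; split_ifs
      · exact clp_nonneg _ _
      · exact le_rfl) (fun u k => if_neg k)
    (fun c _ => sum_nonneg fun e he => rθ e (mem_filter.1 he).1) fun c hc v hv u hu hn hE => by
      obtain ⟨a, e, he, ea, eb, ep⟩ := h.out c hc v hv u hu hn hE
      have b := lip e he ep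
      have b' : r e / θ ≤ ρ c := single_le_sum (f := fun e => r e / θ)
        (fun e he => rθ e (mem_filter.1 he).1) (mem_filter.2 ⟨he, ea⟩)
      rw [ea, eb] at b
      by_cases k : u ∈ A
      · simp only [ψ, k, if_true]; linarith
      · have : φ (nd u) = 0 := clp_high h0 (hH _ (a.resolve_left k))
        simp only [ψ, k, if_false]; linarith
  have k2 : ∑ c ∈ C, ρ c ≤ ∑ e ∈ N.E, r e / θ := by
    rw [sum_fiberwise_eq_sum_filter]
    exact sum_le_sum_of_subset_of_nonneg (filter_subset _ _) fun e he _ => rθ e he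
  have k3 : ∑ u ∈ A ∪ K, φ (N.arc (ar u)).b ≤ ∑ c ∈ C, φ c := by
    rw [← sum_image (f := φ) inj, ← sum_filter_of_ne (p := fun v => v ∈ C) fun v hv k => by
      obtain ⟨u, hu, rfl⟩ := mem_image.1 hv
      exact (ha u hu).2.2.resolve_right fun k' => k (clp_high h0 (hH _ k'))]
    exact sum_le_sum_of_subset_of_nonneg (fun u hu => (mem_filter.1 hu).2)
      fun u _ _ => clp_nonneg _ _
  have k4 : ∑ u ∈ A ∪ K, r (ar u) / θ ≤ ∑ e ∈ N.E, r e / θ := by
    rw [← sum_image (f := fun e => r e / θ) (g := ar) fun u hu u' hu' e => inj hu hu' (by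
      simp only [e])]
    exact sum_le_sum_of_subset_of_nonneg (fun e he => by
      obtain ⟨u, hu, rfl⟩ := mem_image.1 he
      exact (ha u hu).1) fun e he _ => rθ e he
  have k5 := sum_le_sum fun u hu => lip _ (ha u hu).1 (ha u hu).2.1
  rw [sum_add_distrib, sum_union dAK] at k5
  have k6 : ∑ u ∈ A, φ (N.arc (ar u)).a = ∑ u ∈ A, ψ u :=
    sum_congr rfl fun u hu => by simp only [ψ, hu, if_true, hA u hu]
  have k7 : ∑ u ∈ K, φ (N.arc (ar u)).a = #K := by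
    rw [sum_congr rfl fun u hu => show φ (N.arc (ar u)).a = 1 by
      simp only [φ, hK u hu, y0, clp_zero]]
    simp
  rw [mul_div_assoc, sum_div]
  linarith

/-- **the end count**: `K` exposed vertices now, at least `K - 2.2 Wt/(b θ)` in every matching -/
theorem endCount {V : Finset ℕ} {E : ℕ → ℕ → Prop} {N : Net} {C : Finset ℕ}
    {S : ℕ → Finset ℕ} {A : Finset ℕ} {nd : ℕ → ℕ} {K : Finset ℕ} {H : ℕ → Prop}
    (h : Shp V E N C S A nd K H) {P : Pm} {y : ℕ → ℝ} (hD : 1 ≤ P.D) (hs : 1 ≤ P.s0)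
    (hc : N.Circ N.X) (hy : Du P N y) (hf : Fat P N) {b : ℕ} (b1 : 1 ≤ b)
    (hb : ∀ e ∈ N.E, b ≤ (N.arc e).o3) {θ : ℝ} (h0 : 0 < θ) (y0 : y 0 = 0)
    (hH : ∀ v, H v → θ ≤ y v) {m : ℕ → ℕ} (hm : IsM V E m) :
    (#K : ℝ) ≤ ex V m + 11 / 5 * P.D *
      (∑ e ∈ N.E, (11 / 9 * ((N.arc e).c1 + (N.arc e).c2) + (N.arc e).c3 : ℝ)) / (b * θ) := by
  have k := h.count h0 y0 hH (r := fun e => 11 / 10 * up P N e)
    (fun e he => mul_nonneg (by norm_num) (up_nonneg hD hs hf he))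
    (fun e he hp => hy.rise hD hs hf he hp) hm
  have u := up_sum hD hs hc hy hf hb
  have d : (0 : ℝ) < P.D := by exact_mod_cast hD
  have b0 : (0 : ℝ) < b := by exact_mod_cast b1
  rw [← mul_sum] at k
  refine k.trans (add_le_add_right ?_ _)
  rw [div_le_div_iff₀ h0 (by positivity)]
  rw [div_mul_eq_mul_div, div_le_iff₀ d] at u
  nlinarith

/-- the end count, arcs of small capacity are allowed if the dual falls along them -/
theorem endCount' {V : Finset ℕ} {E : ℕ → ℕ → Prop} {N : Net} {C : Finset ℕ}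
    {S : ℕ → Finset ℕ} {A : Finset ℕ} {nd : ℕ → ℕ} {K : Finset ℕ} {H : ℕ → Prop}
    (h : Shp V E N C S A nd K H) {P : Pm} {y : ℕ → ℝ} (hD : 1 ≤ P.D) (hs : 1 ≤ P.s0)
    (hc : N.Circ N.X) (hy : Du P N y) (hf : Fat P N) {b : ℕ} (b1 : 1 ≤ b)
    (hb : ∀ e ∈ N.E, b ≤ (N.arc e).o3 ∨ y (N.arc e).b ≤ y (N.arc e).a) {θ : ℝ} (h0 : 0 < θ)
    (y0 : y 0 = 0) (hH : ∀ v, H v → θ ≤ y v) {m : ℕ → ℕ} (hm : IsM V E m) :
    (#K : ℝ) ≤ ex V m + 11 / 5 * P.D *
      (∑ e ∈ N.E, (11 / 9 * ((N.arc e).c1 + (N.arc e).c2) + (N.arc e).c3 : ℝ)) / (b * θ) := by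
  have u0 := fun e he => up_nonneg (N := N) (e := e) hD hs hf he
  have k := h.count h0 y0 hH (r := fun e => 11 / 10 * if b ≤ (N.arc e).o3 then up P N e else 0)
    (fun e he => mul_nonneg (by norm_num) (by split_ifs; exacts [u0 e he, le_rfl]))
    (fun e he hp => by
      split_ifs with c
      · exact hy.rise hD hs hf he hp
      · simpa using (hb e he).resolve_left c) hm
  have d : (0 : ℝ) < P.D := by exact_mod_cast hD
  have b0 : (0 : ℝ) < b := by exact_mod_cast b1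
  have u : (b : ℝ) / P.D * ∑ e ∈ N.E, (if b ≤ (N.arc e).o3 then up P N e else 0) ≤
      ∑ e ∈ N.E, (11 / 9 * ((N.arc e).c1 + (N.arc e).c2) + (N.arc e).c3 : ℝ) := by
    refine le_trans ?_ (rise_sum hD hs hc hy hf)
    rw [mul_sum]
    refine sum_le_sum fun e he => ?_
    have := u0 e he
    split_ifs with c
    · gcongr
    · rw [mul_zero]; positivity
  rw [← mul_sum] at k
  refine k.trans (add_le_add_right ?_ _)
  rw [div_le_div_iff₀ h0 (by positivity)]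
  rw [div_mul_eq_mul_div, div_le_iff₀ d] at u
  nlinarith

end Crest.Agent.N325.En
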