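import Crest.Agent.N325.En.Cnt

/-!
# Row 325 (helper32): the end count when the matched edge of a base carries no plain arc
-/

set_option autoImplicit false
open Finset

namespace Crest.Agent.N325.En

open Crest.Agent.N325.Mt Crest.Agent.N325.Ip Crest.Agent.N325.Ipm

/-- as `Shp`, but an edge from a class to the inner vertex whose entry arc `ar u` ends at this class
needs no plain arc -/
structure Shp2 (V : Finset ℕ) (E : ℕ → ℕ → Prop) (N : Net) (C : Finset ℕ) (S : ℕ → Finset ℕ)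
    (A : Finset ℕ) (nd ar : ℕ → ℕ) (K : Finset ℕ) (H : ℕ → Prop) : Prop where
  sub : ∀ c ∈ C, S c ⊆ V
  odd : ∀ c ∈ C, Odd #(S c)
  dis : ∀ c ∈ C, ∀ c' ∈ C, c ≠ c' → Disjoint (S c) (S c')
  out : ∀ c ∈ C, ∀ v ∈ S c, ∀ u ∈ V, u ∉ S c → E v u → (u ∈ A ∧ (N.arc (ar u)).b = c) ∨
    (u ∈ A ∨ H (nd u)) ∧ ∃ e ∈ N.E, (N.arc e).a = c ∧ (N.arc e).b = nd u ∧ (N.arc e).p = 0
  inj : Set.InjOn (fun u => (N.arc (ar u)).b) ↑(A ∪ K)
  dAK : Disjoint A K
  ent : ∀ u ∈ A ∪ K, ar u ∈ N.E ∧ (N.arc (ar u)).p = 0 ∧ (N.arc (ar u)).b ∈ C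
  hA : ∀ u ∈ A, (N.arc (ar u)).a = nd u
  hK : ∀ u ∈ K, (N.arc (ar u)).a = 0

/-- the abstract end count -/
theorem Shp2.count {V : Finset ℕ} {E : ℕ → ℕ → Prop} {N : Net} {C : Finset ℕ}
    {S : ℕ → Finset ℕ} {A : Finset ℕ} {nd ar : ℕ → ℕ} {K : Finset ℕ} {H : ℕ → Prop}
    (h : Shp2 V E N C S A nd ar K H) {y r : ℕ → ℝ} {θ : ℝ} (h0 : 0 < θ) (y0 : y 0 = 0)
    (hH : ∀ v, H v → θ ≤ y v) (r0 : ∀ e ∈ N.E, 0 ≤ r e)
    (hr : ∀ e ∈ N.E, (N.arc e).p = 0 → y (N.arc e).b ≤ y (N.arc e).a + r e)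
    {m : ℕ → ℕ} (hm : IsM V E m) : (#K : ℝ) ≤ ex V m + 2 * (∑ e ∈ N.E, r e) / θ := by
  let φ : ℕ → ℝ := fun v => clp θ (y v)
  let ψ : ℕ → ℝ := fun u => if u ∈ A then max (φ (nd u)) (φ (N.arc (ar u)).b) else 0
  let ρ : ℕ → ℝ := fun c => ∑ e ∈ N.E with (N.arc e).a = c, r e / θ
  have rθ : ∀ e ∈ N.E, 0 ≤ r e / θ := fun e he => div_nonneg (r0 e he) h0.le
  have lip : ∀ e ∈ N.E, (N.arc e).p = 0 → φ (N.arc e).a ≤ φ (N.arc e).b + r e / θ :=
    fun e he hp => clp_lip h0 (r0 e he) (hr e he hp)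
  have ρ0 : ∀ c, 0 ≤ ρ c := fun c => sum_nonneg fun e he => rθ e (mem_filter.1 he).1
  have k1 := ex_ge hm (A := A) h.sub h.odd h.dis (φ := φ) (ψ := ψ) (ρ := ρ)
    (fun _ _ => clp_le_one _ _) (fun u => by
      simp only [ψ]; split_ifs
      · exact le_max_of_le_left (clp_nonneg _ _)
      · exact le_rfl) (fun u k => if_neg k) (fun c _ => ρ0 c) fun c hc v hv u hu hn hE => by
      rcases h.out c hc v hv u hu hn hE with ⟨k, q⟩ | ⟨a, e, he, ea, eb, ep⟩
      · have := ρ0 c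
        have := le_max_right (φ (nd u)) (φ c)
        simp only [ψ, k, if_true, q]; linarith
      have b := lip e he ep
      have b' : r e / θ ≤ ρ c := single_le_sum (f := fun e => r e / θ)
        (fun e he => rθ e (mem_filter.1 he).1) (mem_filter.2 ⟨he, ea⟩)
      rw [ea, eb] at b
      by_cases k : u ∈ A
      · have := le_max_left (φ (nd u)) (φ (N.arc (ar u)).b)
        simp only [ψ, k, if_true]; linarith
      · have : φ (nd u) = 0 := clp_high h0 (hH _ (a.resolve_left k))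
        simp only [ψ, k, if_false]; linarith
  have k2 : ∑ c ∈ C, ρ c ≤ ∑ e ∈ N.E, r e / θ := by
    rw [sum_fiberwise_eq_sum_filter]
    exact sum_le_sum_of_subset_of_nonneg (filter_subset _ _) fun e he _ => rθ e he
  have k3 : ∑ u ∈ A ∪ K, φ (N.arc (ar u)).b ≤ ∑ c ∈ C, φ c := by
    rw [← sum_image (f := φ) h.inj]
    exact sum_le_sum_of_subset_of_nonneg (fun v hv => by
      obtain ⟨u, hu, rfl⟩ := mem_image.1 hv
      exact (h.ent u hu).2.2) fun u _ _ => clp_nonneg _ _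
  have k4 : ∑ u ∈ A ∪ K, r (ar u) / θ ≤ ∑ e ∈ N.E, r e / θ := by
    rw [← sum_image (f := fun e => r e / θ) (g := ar) fun u hu u' hu' e => h.inj hu hu' (by
      simp only [e])]
    exact sum_le_sum_of_subset_of_nonneg (fun e he => by
      obtain ⟨u, hu, rfl⟩ := mem_image.1 he
      exact (h.ent u hu).1) fun e he _ => rθ e he
  have k5 : ∑ u ∈ A, ψ u ≤ ∑ u ∈ A, (φ (N.arc (ar u)).b + r (ar u) / θ) :=
    sum_le_sum fun u hu => by
      have e := h.ent u (mem_union_left _ hu)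
      have a := lip _ e.1 e.2.1
      have := rθ _ e.1
      rw [h.hA u hu] at a
      simp only [ψ, hu, if_true]
      exact max_le a (by linarith)
  have k6 : ∑ _u ∈ K, (1 : ℝ) ≤ ∑ u ∈ K, (φ (N.arc (ar u)).b + r (ar u) / θ) :=
    sum_le_sum fun u hu => by
      have e := h.ent u (mem_union_right _ hu)
      have a := lip _ e.1 e.2.1
      rw [h.hK u hu] at a
      simpa only [φ, y0, clp_zero] using a
  rw [sum_union h.dAK] at k3 k4
  rw [sum_add_distrib] at k5 k6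
  rw [sum_const, nsmul_eq_mul, mul_one] at k6
  rw [mul_div_assoc, sum_div]
  linarith

/-- the end count, arcs of small capacity are allowed if the dual falls along them -/
theorem endCount2 {V : Finset ℕ} {E : ℕ → ℕ → Prop} {N : Net} {C : Finset ℕ}
    {S : ℕ → Finset ℕ} {A : Finset ℕ} {nd ar : ℕ → ℕ} {K : Finset ℕ} {H : ℕ → Prop}
    (h : Shp2 V E N C S A nd ar K H) {P : Pm} {y : ℕ → ℝ} (hD : 1 ≤ P.D) (hs : 1 ≤ P.s0)
    (hc : N.Circ N.X) (hy : Du P N y) (hf : Fat P N) {b : ℕ}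
    (hb : ∀ e ∈ N.E, b ≤ (N.arc e).o3 ∨ y (N.arc e).b ≤ y (N.arc e).a) {θ : ℝ} (h0 : 0 < θ)
    (y0 : y 0 = 0) (hH : ∀ v, H v → θ ≤ y v) {m : ℕ → ℕ} (hm : IsM V E m) :
    ((#K : ℝ) - ex V m) * b * θ ≤ 11 / 5 * P.D *
      ∑ e ∈ N.E, (11 / 9 * ((N.arc e).c1 + (N.arc e).c2) + (N.arc e).c3 : ℝ) := by
  have u0 := fun e he => up_nonneg (N := N) (e := e) hD hs hf he
  have k := h.count h0 y0 hH (r := fun e => 11 / 10 * if b ≤ (N.arc e).o3 then up P N e else 0)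
    (fun e he => mul_nonneg (by norm_num) (by split_ifs; exacts [u0 e he, le_rfl]))
    (fun e he hp => by
      split_ifs with c
      · exact hy.rise hD hs hf he hp
      · simpa using (hb e he).resolve_left c) hm
  have d : (0 : ℝ) < P.D := by exact_mod_cast hD
  have b0 : (0 : ℝ) ≤ b := Nat.cast_nonneg _
  have u : (b : ℝ) / P.D * ∑ e ∈ N.E, (if b ≤ (N.arc e).o3 then up P N e else 0) ≤
      ∑ e ∈ N.E, (11 / 9 * ((N.arc e).c1 + (N.arc e).c2) + (N.arc e).c3 : ℝ) := by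
    refine le_trans ?_ (rise_sum hD hs hc hy hf)
    rw [mul_sum]
    refine sum_le_sum fun e he => ?_
    have := u0 e he
    split_ifs with c
    · gcongr
    · rw [mul_zero]; positivity
  rw [← mul_sum, ← sub_le_iff_le_add', le_div_iff₀ h0] at k
  rw [div_mul_eq_mul_div, div_le_iff₀ d] at u
  nlinarith [mul_le_mul_of_nonneg_left k b0]

end Crest.Agent.N325.En
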